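import Mathlib

/-! Random systematic codes over `ZMod P`: definitions for the block lemma. -/

namespace Vale.Agent.P230.G1

open Finset Matrix

variable {P : ℕ} [NeZero P] {σ ρ : Type*} [Fintype σ] [Fintype ρ]
  [DecidableEq σ] [DecidableEq ρ]

/-- the codeword of the message `k` for the systematic code with parity matrix `B` -/
def cw (B : Matrix σ ρ (ZMod P)) (k : σ → ZMod P) : σ ⊕ ρ → ZMod P := Sum.elim k (k ᵥ* B)

/-- normalized sum of `g` over the coset `v + C` -/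
noncomputable def X1 (B : Matrix σ ρ (ZMod P)) (g : (σ ⊕ ρ → ZMod P) → ℝ)
    (v : σ ⊕ ρ → ZMod P) : ℝ :=
  (P : ℝ) ^ Fintype.card ρ * ∑ k : σ → ZMod P, g (v + cw B k)

/-- number of messages `k` with `g (v + c_k) ≠ 0` -/
noncomputable def Nk (B : Matrix σ ρ (ZMod P)) (g : (σ ⊕ ρ → ZMod P) → ℝ)
    (v : σ ⊕ ρ → ZMod P) : ℕ :=
  (univ.filter fun k : σ → ZMod P => g (v + cw B k) ≠ 0).card

/-- `X1` cut off to the phases with a unique survivor -/
noncomputable def X (B : Matrix σ ρ (ZMod P)) (g : (σ ⊕ ρ → ZMod P) → ℝ)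
    (v : σ ⊕ ρ → ZMod P) : ℝ :=
  if Nk B g v = 1 then X1 B g v else 0

end Vale.Agent.P230.G1
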