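import Mathlib
import Vale.Agent.P230.G1.Defs

/-! Random systematic codes over `ZMod P`: existence of a code with small collision mass and
small additive energy (parts (a), (b) of the abstract block lemma). -/

set_option linter.unusedSectionVars false

namespace Vale.Agent.P230.G1

open Finset Matrix

variable {P : ℕ} {σ ρ : Type*} [Fintype σ] [Fintype ρ] [DecidableEq σ] [DecidableEq ρ]

section basic

variable [NeZero P]

omit [Fintype ρ] [DecidableEq σ] [DecidableEq ρ] [NeZero P] in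
theorem cw_add (B : Matrix σ ρ (ZMod P)) (k k' : σ → ZMod P) :
    cw B (k + k') = cw B k + cw B k' := by
  funext i
  cases i <;> simp [cw, add_vecMul]

omit [Fintype ρ] [DecidableEq σ] [DecidableEq ρ] [NeZero P] in
theorem cw_sub (B : Matrix σ ρ (ZMod P)) (k k' : σ → ZMod P) :
    cw B (k - k') = cw B k - cw B k' := by
  funext i
  cases i <;> simp [cw, sub_vecMul]

omit [Fintype ρ] [DecidableEq σ] [DecidableEq ρ] [NeZero P] in
theorem cw_zero (B : Matrix σ ρ (ZMod P)) : cw B 0 = 0 := by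
  funext i
  cases i <;> simp [cw]

/-- the number of phases -/
theorem card_phase : (Fintype.card (σ ⊕ ρ → ZMod P) : ℝ) =
    (P : ℝ) ^ (Fintype.card σ + Fintype.card ρ) := by
  simp [Fintype.card_sum, ZMod.card]

theorem card_msg : (Fintype.card (σ → ZMod P) : ℝ) = (P : ℝ) ^ Fintype.card σ := by
  simp [ZMod.card]

theorem card_par : (Fintype.card (ρ → ZMod P) : ℝ) = (P : ℝ) ^ Fintype.card ρ := by
  simp [ZMod.card]

theorem sum_shift {V : Type*} [AddGroup V] [Fintype V] (f : V → ℝ) (c : V) :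
    ∑ v, f (v + c) = ∑ v, f v := Equiv.sum_comp (Equiv.addRight c) f

theorem sum_shift_left {V : Type*} [AddGroup V] [Fintype V] (f : V → ℝ) (c : V) :
    ∑ v, f (c + v) = ∑ v, f v := Equiv.sum_comp (Equiv.addLeft c) f

theorem sum_X1 (B : Matrix σ ρ (ZMod P)) (g : (σ ⊕ ρ → ZMod P) → ℝ) :
    ∑ v, X1 B g v = (P : ℝ) ^ (Fintype.card σ + Fintype.card ρ) * ∑ v, g v := by
  unfold X1
  rw [← mul_sum, sum_comm]
  simp_rw [sum_shift g]
  rw [sum_const, card_univ, nsmul_eq_mul, card_msg, pow_add]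
  ring

theorem X1_nonneg (B : Matrix σ ρ (ZMod P)) {g : (σ ⊕ ρ → ZMod P) → ℝ} (hg : ∀ v, 0 ≤ g v)
    (v : σ ⊕ ρ → ZMod P) : 0 ≤ X1 B g v :=
  mul_nonneg (by positivity) (sum_nonneg fun _ _ => hg _)

theorem X_nonneg (B : Matrix σ ρ (ZMod P)) {g : (σ ⊕ ρ → ZMod P) → ℝ} (hg : ∀ v, 0 ≤ g v)
    (v : σ ⊕ ρ → ZMod P) : 0 ≤ X B g v := by
  unfold X
  split_ifs
  · exact X1_nonneg B hg v
  · exact le_rfl

theorem X1_eq_zero_of_Nk {B : Matrix σ ρ (ZMod P)} {g : (σ ⊕ ρ → ZMod P) → ℝ}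
    {v : σ ⊕ ρ → ZMod P} (h : Nk B g v = 0) : X1 B g v = 0 := by
  unfold Nk at h
  rw [card_eq_zero, filter_eq_empty_iff] at h
  unfold X1
  rw [sum_eq_zero, mul_zero]
  intro k _
  exact not_not.1 (h (mem_univ k))

theorem X1_sub_X_le (B : Matrix σ ρ (ZMod P)) {g : (σ ⊕ ρ → ZMod P) → ℝ} (hg : ∀ v, 0 ≤ g v)
    (v : σ ⊕ ρ → ZMod P) : X1 B g v - X B g v ≤ X1 B g v * ((Nk B g v : ℝ) - 1) := by
  have h0 := X1_nonneg B hg v
  unfold X
  split_ifs with h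
  · simp [h]
  · rcases Nat.lt_or_ge (Nk B g v) 1 with h1 | h1
    · have h2 : Nk B g v = 0 := by omega
      rw [X1_eq_zero_of_Nk h2]
      simp
    · have h2 : 2 ≤ Nk B g v := by omega
      have h3 : (2 : ℝ) ≤ Nk B g v := by exact_mod_cast h2
      nlinarith

/-- `∑ X1 (N - 1)` is an off-diagonal pair count -/
theorem sum_cross (B : Matrix σ ρ (ZMod P)) (g : (σ ⊕ ρ → ZMod P) → ℝ) :
    ∑ v, X1 B g v * ((Nk B g v : ℝ) - 1) =
      (P : ℝ) ^ (Fintype.card σ + Fintype.card ρ) *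
        ∑ k ∈ univ.erase (0 : σ → ZMod P), ∑ u, g u * (if g (u + cw B k) ≠ 0 then 1 else 0) := by
  have h1 : ∀ v, X1 B g v * ((Nk B g v : ℝ) - 1) = (P : ℝ) ^ Fintype.card ρ *
      ∑ k : σ → ZMod P, ∑ l ∈ univ.erase (0 : σ → ZMod P),
        g (v + cw B k) * (if g (v + cw B k + cw B l) ≠ 0 then 1 else 0) := by
    intro v
    unfold X1
    rw [mul_assoc, sum_mul]
    congr 1
    refine sum_congr rfl fun k _ => ?_
    rw [← mul_sum]
    rcases eq_or_ne (g (v + cw B k)) 0 with h | h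
    · rw [h]; ring
    · congr 1
      have h2 : (Nk B g v : ℝ) = ∑ l : σ → ZMod P,
          (if g (v + cw B k + cw B l) ≠ 0 then (1 : ℝ) else 0) := by
        unfold Nk
        rw [card_filter]
        push_cast
        rw [← sum_shift_left (fun l : σ → ZMod P => if g (v + cw B l) ≠ 0 then (1 : ℝ) else 0) k]
        refine sum_congr rfl fun l _ => ?_
        rw [cw_add, add_assoc]
      rw [h2, ← add_sum_erase univ _ (mem_univ (0 : σ → ZMod P))]
      rw [cw_zero, add_zero, if_pos h]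
      ring
  simp_rw [h1]
  rw [← mul_sum, sum_comm, pow_add]
  have h3 : ∀ k : σ → ZMod P, ∑ v, ∑ l ∈ univ.erase (0 : σ → ZMod P),
        g (v + cw B k) * (if g (v + cw B k + cw B l) ≠ 0 then (1 : ℝ) else 0) =
      ∑ l ∈ univ.erase (0 : σ → ZMod P), ∑ u, g u * (if g (u + cw B l) ≠ 0 then 1 else 0) := by
    intro k
    rw [sum_comm]
    refine sum_congr rfl fun l _ => ?_
    exact sum_shift (fun u => g u * (if g (u + cw B l) ≠ 0 then (1 : ℝ) else 0)) (cw B k)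
  simp_rw [h3]
  rw [sum_const, card_univ, nsmul_eq_mul, card_msg]
  ring

/-- the correlation of `g` at four shifted points -/
noncomputable def HH (g : (σ ⊕ ρ → ZMod P) → ℝ) (c : σ ⊕ ρ → ZMod P) : ℝ :=
  ∑ v1, ∑ v2, ∑ v3, g v1 * g v2 * g v3 * g (v2 + v3 - v1 + c)

theorem HH_nonneg {g : (σ ⊕ ρ → ZMod P) → ℝ} (hg : ∀ v, 0 ≤ g v) (c : σ ⊕ ρ → ZMod P) :
    0 ≤ HH g c :=
  sum_nonneg fun _ _ => sum_nonneg fun _ _ => sum_nonneg fun _ _ =>
    mul_nonneg (mul_nonneg (mul_nonneg (hg _) (hg _)) (hg _)) (hg _)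

theorem sum_HH (g : (σ ⊕ ρ → ZMod P) → ℝ) : ∑ c, HH g c = (∑ v, g v) ^ 4 := by
  unfold HH
  rw [sum_comm]
  have h1 : ∀ v1, ∑ c, ∑ v2, ∑ v3, g v1 * g v2 * g v3 * g (v2 + v3 - v1 + c) =
      g v1 * (∑ v, g v) ^ 3 := by
    intro v1
    rw [sum_comm]
    have h2 : ∀ v2, ∑ c, ∑ v3, g v1 * g v2 * g v3 * g (v2 + v3 - v1 + c) =
        g v1 * g v2 * (∑ v, g v) ^ 2 := by
      intro v2
      rw [sum_comm]
      have h3 : ∀ v3, ∑ c, g v1 * g v2 * g v3 * g (v2 + v3 - v1 + c) =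
          g v1 * g v2 * g v3 * (∑ v, g v) := by
        intro v3
        rw [← mul_sum, sum_shift_left]
      simp_rw [h3]
      rw [← sum_mul, ← mul_sum]
      ring
    simp_rw [h2]
    rw [← sum_mul, ← mul_sum]
    ring
  simp_rw [h1]
  rw [← sum_mul]
  ring

/-- autocorrelation of `X1` -/
noncomputable def Gam (B : Matrix σ ρ (ZMod P)) (g : (σ ⊕ ρ → ZMod P) → ℝ)
    (u : σ ⊕ ρ → ZMod P) : ℝ := ∑ v, X1 B g v * X1 B g (v + u)

theorem sum_Gam (B : Matrix σ ρ (ZMod P)) (g : (σ ⊕ ρ → ZMod P) → ℝ) :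
    ∑ u, Gam B g u =
      ((P : ℝ) ^ (Fintype.card σ + Fintype.card ρ) * ∑ v, g v) ^ 2 := by
  unfold Gam
  rw [sum_comm]
  have h : ∀ v, ∑ u, X1 B g v * X1 B g (v + u) = X1 B g v * ∑ u, X1 B g u := by
    intro v
    rw [← mul_sum, sum_shift_left]
  simp_rw [h]
  rw [← sum_mul, sum_X1]
  ring

theorem four_sum (g : (σ ⊕ ρ → ZMod P) → ℝ) (c1 c2 c3 c4 : σ ⊕ ρ → ZMod P) :
    ∑ u, ∑ v, ∑ w, g (v + c1) * g (v + u + c2) * g (w + c3) * g (w + u + c4) =
      HH g (c1 - c2 - c3 + c4) := by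
  rw [sum_comm]
  unfold HH
  rw [← sum_shift (fun v1 => ∑ v2, ∑ v3, g v1 * g v2 * g v3 *
    g (v2 + v3 - v1 + (c1 - c2 - c3 + c4))) c1]
  refine sum_congr rfl fun v _ => ?_
  rw [← sum_shift (fun v2 => ∑ v3, g (v + c1) * g v2 * g v3 *
    g (v2 + v3 - (v + c1) + (c1 - c2 - c3 + c4))) (v + c2)]
  refine sum_congr rfl fun u _ => ?_
  rw [← sum_shift (fun v3 => g (v + c1) * g (u + (v + c2)) * g v3 *
    g (u + (v + c2) + v3 - (v + c1) + (c1 - c2 - c3 + c4))) c3]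
  refine sum_congr rfl fun w _ => ?_
  have e1 : v + u + c2 = u + (v + c2) := by abel
  have e2 : w + u + c4 = u + (v + c2) + (w + c3) - (v + c1) + (c1 - c2 - c3 + c4) := by abel
  rw [e1, e2]

theorem gam_expand {K V : Type*} [Fintype K] [Fintype V] [Add V] (f : K → V → ℝ) (u : V) :
    ∑ v, (∑ k, f k v) * (∑ k, f k (v + u)) = ∑ k1, ∑ k2, ∑ v, f k1 v * f k2 (v + u) := by
  simp_rw [sum_mul_sum]
  rw [sum_comm]
  exact sum_congr rfl fun k1 _ => sum_comm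

theorem sq_expand {K : Type*} [Fintype K] (A : K → K → ℝ) :
    (∑ k1, ∑ k2, A k1 k2) ^ 2 = ∑ k1, ∑ k2, ∑ k3, ∑ k4, A k1 k2 * A k3 k4 := by
  rw [sq]
  simp_rw [sum_mul, mul_sum]

theorem sum_Gam_sq (B : Matrix σ ρ (ZMod P)) (g : (σ ⊕ ρ → ZMod P) → ℝ) :
    ∑ u, Gam B g u ^ 2 =
      (P : ℝ) ^ (4 * Fintype.card ρ + 3 * Fintype.card σ) *
        ∑ k : σ → ZMod P, HH g (cw B k) := by
  have h1 : ∀ u, Gam B g u ^ 2 = (P : ℝ) ^ (4 * Fintype.card ρ) *
      ∑ k1 : σ → ZMod P, ∑ k2 : σ → ZMod P, ∑ k3 : σ → ZMod P, ∑ k4 : σ → ZMod P,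
        ∑ v, ∑ w, g (v + cw B k1) * g (v + u + cw B k2) * g (w + cw B k3) *
          g (w + u + cw B k4) := by
    intro u
    have h2 : Gam B g u = (P : ℝ) ^ (2 * Fintype.card ρ) *
        ∑ k1 : σ → ZMod P, ∑ k2 : σ → ZMod P, ∑ v, g (v + cw B k1) * g (v + u + cw B k2) := by
      rw [← gam_expand (fun (k : σ → ZMod P) v => g (v + cw B k)) u]
      unfold Gam X1
      rw [mul_sum]
      refine sum_congr rfl fun v _ => ?_
      rw [two_mul, pow_add]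
      ring
    have e1 : (P : ℝ) ^ (4 * Fintype.card ρ) = ((P : ℝ) ^ (2 * Fintype.card ρ)) ^ 2 := by
      rw [← pow_mul]
      ring_nf
    rw [h2, mul_pow, sq_expand, e1]
    refine congrArg _ ?_
    refine sum_congr rfl fun k1 _ => sum_congr rfl fun k2 _ => sum_congr rfl fun k3 _ =>
      sum_congr rfl fun k4 _ => ?_
    rw [sum_mul_sum]
    refine sum_congr rfl fun v _ => sum_congr rfl fun w _ => ?_
    ring
  simp_rw [h1]
  rw [← mul_sum, pow_add, mul_assoc]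
  refine congrArg _ ?_
  rw [sum_comm]
  have h3 : ∀ k1 : σ → ZMod P, ∑ u, ∑ k2 : σ → ZMod P, ∑ k3 : σ → ZMod P, ∑ k4 : σ → ZMod P,
        ∑ v, ∑ w, g (v + cw B k1) * g (v + u + cw B k2) * g (w + cw B k3) *
          g (w + u + cw B k4) = (P : ℝ) ^ (2 * Fintype.card σ) *
            ∑ k : σ → ZMod P, HH g (cw B k) := by
    intro k1
    rw [sum_comm]
    have h4 : ∀ k2 : σ → ZMod P, ∑ u, ∑ k3 : σ → ZMod P, ∑ k4 : σ → ZMod P,
        ∑ v, ∑ w, g (v + cw B k1) * g (v + u + cw B k2) * g (w + cw B k3) *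
          g (w + u + cw B k4) = (P : ℝ) ^ (Fintype.card σ) *
            ∑ k : σ → ZMod P, HH g (cw B k) := by
      intro k2
      rw [sum_comm]
      have h5 : ∀ k3 : σ → ZMod P, ∑ u, ∑ k4 : σ → ZMod P,
          ∑ v, ∑ w, g (v + cw B k1) * g (v + u + cw B k2) * g (w + cw B k3) *
            g (w + u + cw B k4) = ∑ k : σ → ZMod P, HH g (cw B k) := by
        intro k3
        rw [sum_comm]
        rw [← sum_shift_left (fun k : σ → ZMod P => HH g (cw B k)) (k1 - k2 - k3)]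
        refine sum_congr rfl fun k4 _ => ?_
        rw [four_sum, cw_add, cw_sub, cw_sub]
      simp_rw [h5]
      rw [sum_const, card_univ, nsmul_eq_mul, card_msg]
    simp_rw [h4]
    rw [sum_const, card_univ, nsmul_eq_mul, card_msg]
    ring
  simp_rw [h3]
  rw [sum_const, card_univ, nsmul_eq_mul, card_msg]
  ring

/-- exact mean square deviation of the autocorrelation -/
theorem sum_dev (B : Matrix σ ρ (ZMod P)) (g : (σ ⊕ ρ → ZMod P) → ℝ) (μ : ℝ)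
    (hμ : ∑ v, g v = μ) :
    ∑ u, (Gam B g u / (P : ℝ) ^ (Fintype.card σ + Fintype.card ρ) - μ ^ 2) ^ 2 =
      (P : ℝ) ^ (2 * Fintype.card ρ + Fintype.card σ) * ∑ k : σ → ZMod P, HH g (cw B k) -
        (P : ℝ) ^ (Fintype.card σ + Fintype.card ρ) * μ ^ 4 := by
  have hP : (P : ℝ) ≠ 0 := by
    have := NeZero.ne P
    exact_mod_cast this
  set W : ℝ := (P : ℝ) ^ (Fintype.card σ + Fintype.card ρ) with hW
  have hW0 : W ≠ 0 := pow_ne_zero _ hP
  have h1 : ∀ u, (Gam B g u / W - μ ^ 2) ^ 2 =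
      Gam B g u ^ 2 / W ^ 2 - 2 * μ ^ 2 / W * Gam B g u + μ ^ 4 := by
    intro u
    field_simp
    ring
  simp_rw [h1]
  rw [sum_add_distrib, sum_sub_distrib, ← sum_div, ← mul_sum, sum_Gam, sum_Gam_sq, hμ, sum_const,
    card_univ, nsmul_eq_mul, card_phase, ← hW]
  have h2 : (P : ℝ) ^ (4 * Fintype.card ρ + 3 * Fintype.card σ) =
      (P : ℝ) ^ (2 * Fintype.card ρ + Fintype.card σ) * W ^ 2 := by
    rw [hW, ← pow_mul, ← pow_add]
    congr 1
    ring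
  rw [h2]
  field_simp
  ring

end basic

section prime

variable [Fact P.Prime]

/-- equidistribution of `k B` for `k ≠ 0` -/
theorem sum_vecMul {k : σ → ZMod P} (hk : k ≠ 0) (f : (ρ → ZMod P) → ℝ) :
    (P : ℝ) ^ Fintype.card ρ * ∑ B : Matrix σ ρ (ZMod P), f (k ᵥ* B) =
      (Fintype.card (Matrix σ ρ (ZMod P)) : ℝ) * ∑ c, f c := by
  obtain ⟨i0, hi0⟩ : ∃ i, k i ≠ 0 := by
    by_contra h
    push Not at h
    exact hk (funext h)
  have h1 : ∀ c : ρ → ZMod P, ∑ B : Matrix σ ρ (ZMod P), f (k ᵥ* B) =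
      ∑ B : Matrix σ ρ (ZMod P), f (k ᵥ* B + c) := by
    intro c
    rw [← sum_shift (fun B : Matrix σ ρ (ZMod P) => f (k ᵥ* B))
      (Matrix.of fun i j => if i = i0 then (k i0)⁻¹ * c j else 0)]
    refine sum_congr rfl fun B _ => ?_
    congr 1
    rw [vecMul_add]
    congr 1
    funext j
    simp [vecMul, dotProduct, hi0]
  have h2 : ∑ c : ρ → ZMod P, ∑ B : Matrix σ ρ (ZMod P), f (k ᵥ* B) =
      ∑ c : ρ → ZMod P, ∑ B : Matrix σ ρ (ZMod P), f (k ᵥ* B + c) :=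
    sum_congr rfl fun c _ => h1 c
  rw [sum_const, card_univ, nsmul_eq_mul, card_par, sum_comm] at h2
  rw [h2]
  simp_rw [sum_shift_left]
  rw [sum_const, card_univ, nsmul_eq_mul]

/-- a sum over the phases as a double sum -/
theorem sum_phase (F : (σ ⊕ ρ → ZMod P) → ℝ) :
    ∑ v, F v = ∑ k : σ → ZMod P, ∑ c : ρ → ZMod P, F (Sum.elim k c) := by
  rw [← Fintype.sum_prod_type' (fun (k : σ → ZMod P) (c : ρ → ZMod P) => F (Sum.elim k c))]
  exact (Fintype.sum_equiv (Equiv.sumArrowEquivProdArrow σ ρ (ZMod P)).symm _ _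
    (fun _ => rfl)).symm

/-- average over the parity matrix of a nonnegative function of the nonzero codewords -/
theorem sum_B_le (F : (σ ⊕ ρ → ZMod P) → ℝ) (hF : ∀ v, 0 ≤ F v) :
    (P : ℝ) ^ Fintype.card ρ * ∑ B : Matrix σ ρ (ZMod P),
        ∑ k ∈ univ.erase (0 : σ → ZMod P), F (cw B k) ≤
      (Fintype.card (Matrix σ ρ (ZMod P)) : ℝ) * ∑ v, F v := by
  rw [sum_comm, mul_sum]
  have h1 : ∀ k ∈ univ.erase (0 : σ → ZMod P), (P : ℝ) ^ Fintype.card ρ *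
      ∑ B : Matrix σ ρ (ZMod P), F (cw B k) =
      (Fintype.card (Matrix σ ρ (ZMod P)) : ℝ) * ∑ c : ρ → ZMod P, F (Sum.elim k c) := by
    intro k hk
    exact sum_vecMul (ne_of_mem_erase hk) (fun c => F (Sum.elim k c))
  rw [sum_congr rfl h1, ← mul_sum, sum_phase]
  refine mul_le_mul_of_nonneg_left ?_ (Nat.cast_nonneg _)
  exact sum_le_sum_of_subset_of_nonneg (erase_subset _ _) fun k _ _ => sum_nonneg fun c _ => hF _

theorem sum_B_cross (g : (σ ⊕ ρ → ZMod P) → ℝ) (hg : ∀ v, 0 ≤ g v) (μ : ℝ)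
    (hμ : ∑ v, g v = μ) :
    (P : ℝ) ^ Fintype.card ρ * ∑ B : Matrix σ ρ (ZMod P),
        ∑ k ∈ univ.erase (0 : σ → ZMod P), ∑ u, g u * (if g (u + cw B k) ≠ 0 then 1 else 0) ≤
      (Fintype.card (Matrix σ ρ (ZMod P)) : ℝ) *
        (μ * (univ.filter fun v => g v ≠ 0).card) := by
  refine (sum_B_le (fun c => ∑ u, g u * (if g (u + c) ≠ 0 then (1 : ℝ) else 0))
    (fun c => sum_nonneg fun u _ => mul_nonneg (hg u) (by split_ifs <;> norm_num))).trans
    (le_of_eq ?_)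
  congr 1
  rw [sum_comm]
  have h1 : ∀ u, ∑ c, g u * (if g (u + c) ≠ 0 then (1 : ℝ) else 0) =
      g u * (univ.filter fun v => g v ≠ 0).card := by
    intro u
    rw [← mul_sum, sum_shift_left (fun c => if g c ≠ 0 then (1 : ℝ) else 0) u, card_filter]
    push_cast
    rfl
  simp_rw [h1]
  rw [← sum_mul, hμ]

theorem sum_B_HH (g : (σ ⊕ ρ → ZMod P) → ℝ) (hg : ∀ v, 0 ≤ g v) (μ : ℝ)
    (hμ : ∑ v, g v = μ) :
    (P : ℝ) ^ Fintype.card ρ * ∑ B : Matrix σ ρ (ZMod P), ∑ k : σ → ZMod P, HH g (cw B k) ≤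
      (Fintype.card (Matrix σ ρ (ZMod P)) : ℝ) *
        ((P : ℝ) ^ Fintype.card ρ * HH g 0 + μ ^ 4) := by
  have h1 : ∀ B : Matrix σ ρ (ZMod P), ∑ k : σ → ZMod P, HH g (cw B k) =
      HH g 0 + ∑ k ∈ univ.erase (0 : σ → ZMod P), HH g (cw B k) := by
    intro B
    rw [← add_sum_erase univ _ (mem_univ (0 : σ → ZMod P)), cw_zero]
  simp_rw [h1]
  rw [sum_add_distrib, sum_const, card_univ, nsmul_eq_mul]
  have h2 := sum_B_le (HH g) (HH_nonneg hg)
  rw [sum_HH, hμ] at h2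
  have h3 : (P : ℝ) ^ Fintype.card ρ * ((Fintype.card (Matrix σ ρ (ZMod P)) : ℝ) * HH g 0 +
      ∑ B : Matrix σ ρ (ZMod P), ∑ k ∈ univ.erase (0 : σ → ZMod P), HH g (cw B k)) =
      (Fintype.card (Matrix σ ρ (ZMod P)) : ℝ) * ((P : ℝ) ^ Fintype.card ρ * HH g 0) +
      (P : ℝ) ^ Fintype.card ρ *
        ∑ B : Matrix σ ρ (ZMod P), ∑ k ∈ univ.erase (0 : σ → ZMod P), HH g (cw B k) := by
    ring
  rw [h3, mul_add]
  linarith

omit [Fact P.Prime] in
theorem X1_le [NeZero P] (B : Matrix σ ρ (ZMod P)) {g : (σ ⊕ ρ → ZMod P) → ℝ} {b : ℝ}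
    (hb : ∀ v, g v ≤ b) (v : σ ⊕ ρ → ZMod P) :
    X1 B g v ≤ (P : ℝ) ^ Fintype.card ρ * b * Nk B g v := by
  unfold X1 Nk
  rw [mul_assoc]
  refine mul_le_mul_of_nonneg_left ?_ (by positivity)
  rw [← sum_filter_add_sum_filter_not univ (fun k : σ → ZMod P => g (v + cw B k) ≠ 0)]
  have h2 : ∑ k ∈ univ.filter (fun k : σ → ZMod P => ¬ g (v + cw B k) ≠ 0), g (v + cw B k) = 0 :=
    sum_eq_zero fun k hk => by
      rw [mem_filter] at hk
      exact not_not.1 hk.2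
  rw [h2, add_zero, mul_comm, ← nsmul_eq_mul]
  exact sum_le_card_nsmul _ _ _ fun k _ => hb _

theorem HH_zero_pos (g : (σ ⊕ ρ → ZMod P) → ℝ) (hg : ∀ v, 0 ≤ g v) (hμ : 0 < ∑ v, g v) :
    0 < HH g 0 := by
  obtain ⟨v, -, hv⟩ := exists_lt_of_sum_lt (s := (univ : Finset (σ ⊕ ρ → ZMod P)))
    (f := fun _ => (0 : ℝ)) (g := g) (by simpa using hμ)
  have h0 : ∀ v1 v2 v3, 0 ≤ g v1 * g v2 * g v3 * g (v2 + v3 - v1 + 0) := fun v1 v2 v3 =>
    mul_nonneg (mul_nonneg (mul_nonneg (hg _) (hg _)) (hg _)) (hg _)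
  have h1 : g v * g v * g v * g (v + v - v + 0) ≤ HH g 0 := by
    unfold HH
    refine le_trans ?_ (single_le_sum (f := fun v1 => ∑ v2, ∑ v3,
      g v1 * g v2 * g v3 * g (v2 + v3 - v1 + 0))
      (fun v1 _ => sum_nonneg fun v2 _ => sum_nonneg fun v3 _ => h0 v1 v2 v3) (mem_univ v))
    refine le_trans ?_ (single_le_sum (f := fun v2 => ∑ v3,
      g v * g v2 * g v3 * g (v2 + v3 - v + 0))
      (fun v2 _ => sum_nonneg fun v3 _ => h0 v v2 v3) (mem_univ v))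
    exact single_le_sum (f := fun v3 => g v * g v * g v3 * g (v + v3 - v + 0))
      (fun v3 _ => h0 v v v3) (mem_univ v)
  have h2 : v + v - v + 0 = v := by abel
  rw [h2] at h1
  exact lt_of_lt_of_le (by positivity) h1

/-- Parts (a), (b) of the block lemma: a systematic code with small collision mass and small
additive energy. -/
theorem exists_code (g : (σ ⊕ ρ → ZMod P) → ℝ) (hg : ∀ v, 0 ≤ g v) (b μ H0 : ℝ) (a : ℝ)
    (hb : ∀ v, g v ≤ b) (hμ : ∑ v, g v = μ) (hμ0 : 0 < μ)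
    (ha : ((univ.filter fun v => g v ≠ 0).card : ℝ) ≤ a)
    (hH : ∑ v1, ∑ v2, ∑ v3, g v1 * g v2 * g v3 * g (v2 + v3 - v1) ≤ H0) :
    ∃ B : Matrix σ ρ (ZMod P),
      (∑ v, X1 B g v = (P : ℝ) ^ (Fintype.card σ + Fintype.card ρ) * μ) ∧
      (∑ u, ((∑ v, X1 B g v * X1 B g (v + u)) /
          (P : ℝ) ^ (Fintype.card σ + Fintype.card ρ) - μ ^ 2) ^ 2 ≤
        (P : ℝ) ^ (Fintype.card σ + Fintype.card ρ) * (4 * (P : ℝ) ^ Fintype.card ρ * H0)) ∧
      (∑ v, (X1 B g v - X B g v) ≤ (P : ℝ) ^ (Fintype.card σ + Fintype.card ρ) *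
        (4 * μ * a / (P : ℝ) ^ Fintype.card ρ)) ∧
      (∑ v, X1 B g v ^ 2 ≤ (P : ℝ) ^ (Fintype.card σ + Fintype.card ρ) *
        ((P : ℝ) ^ Fintype.card ρ * b * μ * (1 + 4 * a / (P : ℝ) ^ Fintype.card ρ))) := by
  have hP : (0 : ℝ) < P := by
    have := (Fact.out : P.Prime).pos
    exact_mod_cast this
  set r := Fintype.card ρ with hr
  set s := Fintype.card σ with hs
  set W : ℝ := (P : ℝ) ^ (s + r) with hW
  set M : ℝ := (Fintype.card (Matrix σ ρ (ZMod P)) : ℝ) with hM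
  have hW0 : 0 < W := by positivity
  have hr0 : (0 : ℝ) < (P : ℝ) ^ r := by positivity
  have hHpos : 0 < HH g 0 := HH_zero_pos g hg (by rw [hμ]; exact hμ0)
  have hH' : HH g 0 ≤ H0 := by
    refine le_trans (le_of_eq ?_) hH
    unfold HH
    simp only [add_zero]
  have hH0 : 0 < H0 := lt_of_lt_of_le hHpos hH'
  have ha0 : 0 < a := by
    refine lt_of_lt_of_le ?_ ha
    obtain ⟨v, -, hv⟩ := exists_lt_of_sum_lt (s := (univ : Finset (σ ⊕ ρ → ZMod P)))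
      (f := fun _ => (0 : ℝ)) (g := g) (by simpa [hμ] using hμ0)
    have : 0 < (univ.filter fun v => g v ≠ 0).card :=
      card_pos.2 ⟨v, by simp only [mem_filter, mem_univ, true_and]; exact ne_of_gt hv⟩
    exact_mod_cast this
  -- the two nonnegative quantities
  set dev : Matrix σ ρ (ZMod P) → ℝ := fun B => ∑ u, (Gam B g u / W - μ ^ 2) ^ 2 with hdev
  set cr : Matrix σ ρ (ZMod P) → ℝ := fun B => ∑ v, X1 B g v * ((Nk B g v : ℝ) - 1) with hcr
  have hdev0 : ∀ B, 0 ≤ dev B := fun B => sum_nonneg fun u _ => sq_nonneg _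
  have hcr0 : ∀ B, 0 ≤ cr B := by
    intro B
    rw [hcr]
    simp only
    rw [sum_cross]
    exact mul_nonneg hW0.le (sum_nonneg fun k _ => sum_nonneg fun u _ =>
      mul_nonneg (hg u) (by split_ifs <;> norm_num))
  have hsumdev : ∑ B, dev B ≤ M * (W * ((P : ℝ) ^ r * H0)) := by
    have h1 : ∀ B, dev B = (P : ℝ) ^ (2 * r + s) * ∑ k : σ → ZMod P, HH g (cw B k) -
        W * μ ^ 4 := fun B => sum_dev B g μ hμ
    simp_rw [h1]
    rw [sum_sub_distrib, ← mul_sum, sum_const, card_univ, nsmul_eq_mul, ← hM]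
    have h2 := sum_B_HH g hg μ hμ
    rw [← hM, ← hr] at h2
    have h3 : (P : ℝ) ^ (2 * r + s) = W * (P : ℝ) ^ r := by
      rw [hW, ← pow_add]
      congr 1
      ring
    rw [h3, mul_assoc]
    have h4 : W * ((P : ℝ) ^ r * ∑ B : Matrix σ ρ (ZMod P), ∑ k : σ → ZMod P, HH g (cw B k)) ≤
        W * (M * ((P : ℝ) ^ r * HH g 0 + μ ^ 4)) := mul_le_mul_of_nonneg_left h2 hW0.le
    have h5 : W * (M * ((P : ℝ) ^ r * HH g 0)) ≤ W * (M * ((P : ℝ) ^ r * H0)) := by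
      have : 0 ≤ M := Nat.cast_nonneg _
      gcongr
    linarith
  have hsumcr : ∑ B, cr B ≤ M * (W * (μ * a / (P : ℝ) ^ r)) := by
    have h1 : ∀ B, cr B = W * ∑ k ∈ univ.erase (0 : σ → ZMod P), ∑ u,
        g u * (if g (u + cw B k) ≠ 0 then 1 else 0) := fun B => sum_cross B g
    simp_rw [h1]
    rw [← mul_sum]
    have h2 := sum_B_cross g hg μ hμ
    rw [← hM, ← hr] at h2
    have hM0 : 0 ≤ M := Nat.cast_nonneg _
    have h3 : M * (μ * ((univ.filter fun v => g v ≠ 0).card : ℝ)) ≤ M * (μ * a) := by gcongr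
    have h4 : ∑ B : Matrix σ ρ (ZMod P), ∑ k ∈ univ.erase (0 : σ → ZMod P), ∑ u,
        g u * (if g (u + cw B k) ≠ 0 then (1 : ℝ) else 0) ≤ M * (μ * a) / (P : ℝ) ^ r := by
      rw [le_div_iff₀ hr0, mul_comm]
      exact h2.trans h3
    calc _ ≤ W * (M * (μ * a) / (P : ℝ) ^ r) := mul_le_mul_of_nonneg_left h4 hW0.le
      _ = _ := by ring
  set x0 : ℝ := W * ((P : ℝ) ^ r * H0) with hx0
  set y0 : ℝ := W * (μ * a / (P : ℝ) ^ r) with hy0
  have hx0' : 0 < x0 := by positivity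
  have hy0' : 0 < y0 := by positivity
  obtain ⟨B, -, hB⟩ := exists_le_of_sum_le (s := (univ : Finset (Matrix σ ρ (ZMod P))))
    (f := fun B => y0 * dev B + x0 * cr B) (g := fun _ => 2 * x0 * y0) univ_nonempty (by
      rw [sum_add_distrib, ← mul_sum, ← mul_sum, sum_const, card_univ, nsmul_eq_mul, ← hM]
      have h1 := mul_le_mul_of_nonneg_left hsumdev hy0'.le
      have h2 := mul_le_mul_of_nonneg_left hsumcr hx0'.le
      nlinarith [h1, h2])
  have hB1 : dev B ≤ 4 * x0 := by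
    have h1 : 0 ≤ x0 * cr B := mul_nonneg hx0'.le (hcr0 B)
    have h2 : y0 * dev B ≤ y0 * (2 * x0) := by linarith
    have h3 := le_of_mul_le_mul_left h2 hy0'
    linarith
  have hB2 : cr B ≤ 4 * y0 := by
    have h1 : 0 ≤ y0 * dev B := mul_nonneg hy0'.le (hdev0 B)
    have h2 : x0 * cr B ≤ x0 * (2 * y0) := by linarith
    have h3 := le_of_mul_le_mul_left h2 hx0'
    linarith
  have hb0 : 0 ≤ b := (hg 0).trans (hb 0)
  refine ⟨B, ?_, ?_, ?_, ?_⟩
  · rw [sum_X1, hμ]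
  · refine le_trans hB1 (le_of_eq ?_)
    rw [hx0]
    ring
  · refine le_trans (sum_le_sum fun v _ => X1_sub_X_le B hg v) (le_trans hB2 (le_of_eq ?_))
    rw [hy0]
    ring
  · have h1 : ∑ v, X1 B g v ^ 2 ≤ ∑ v, (P : ℝ) ^ r * b *
        (X1 B g v * ((Nk B g v : ℝ) - 1) + X1 B g v) := by
      refine sum_le_sum fun v _ => ?_
      have h2 := X1_le B hb v
      have h3 := X1_nonneg B hg v
      calc X1 B g v ^ 2 = X1 B g v * X1 B g v := sq _
        _ ≤ ((P : ℝ) ^ r * b * Nk B g v) * X1 B g v := mul_le_mul_of_nonneg_right h2 h3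
        _ = _ := by ring
    refine h1.trans ?_
    rw [← mul_sum, sum_add_distrib, sum_X1, hμ]
    have h4 : ∑ v, X1 B g v * ((Nk B g v : ℝ) - 1) + W * μ ≤ 4 * y0 + W * μ := by
      have := hB2
      rw [hcr] at this
      linarith
    calc (P : ℝ) ^ r * b * (∑ v, X1 B g v * ((Nk B g v : ℝ) - 1) + W * μ)
        ≤ (P : ℝ) ^ r * b * (4 * y0 + W * μ) := by gcongr
      _ = _ := by
        rw [hy0]
        ring

end prime

end Vale.Agent.P230.G1
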